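import Vale.Agent.H83.MatchingsCount
import Vale.Agent.H83.ExpanderCount
import Vale.Agent.H83.ExpanderSpectral
import Vale.Agent.H83.Poly.Main
import Vale.Agent.H83.Poly.Main2

namespace Vale.Agent.Results.P308.A00_CombinedRatioBounds

open Vale.Agent.H83.Matchings

/-- Near-perfect against perfect matchings: the ratio bounds proved for P308, in one statement.
`G` is a finite simple graph on `N` vertices, `NP` the number of its near-perfect matchings
(matchings missing exactly two vertices), `Z` the number of its perfect matchings.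

1. If `G` has a perfect matching, `NP ≤ (N + 1) ^ (3 α) * Z`, `α` the independence number.
2. If all degrees are at most `d`, every vertex set `S` with at most `s` elements has at least
   `4 g |S|` neighbours (`g ≥ 2`) and any two vertex sets with at least `s` elements are joined by
   an edge, then `NP ≤ N (d+1)^(2 log_g N + 2) * Z`.
3. If `G` is `d`-regular and its adjacency matrix `A` satisfies `‖A f‖ ≤ lam ‖f‖` for every `f`
   orthogonal to the constants (two-sided spectral expander), then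
   (a) if `12 g lam ≤ d` for an integer `g ≥ 2`: `NP ≤ N (d+1)^(2 log_g N + 2) * Z` and
       `NP ≤ (d+1)^2 N^(2 ⌈log_g (d+1)⌉ + 1) * Z`;
   (b) if `24 lam ≤ d`: `NP ≤ N ^ 6 * Z`;
   (c) if `2000 lam ≤ d`: `NP ≤ N ^ 3 * Z`. -/
theorem result {V : Type*} [Fintype V] [DecidableEq V] (G : SimpleGraph V) [DecidableRel G.Adj]
    (N NP Z : ℕ) (hN : N = Fintype.card V)
    (hNP : NP = Nat.card {M : G.Subgraph // M.IsMatching ∧ M.vertsᶜ.ncard = 2})
    (hZ : Z = Nat.card {M : G.Subgraph // M.IsPerfectMatching}) :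
    ((∃ M : G.Subgraph, M.IsPerfectMatching) → NP ≤ (N + 1) ^ (3 * G.indepNum) * Z) ∧
    (∀ d g s : ℕ, 0 < d → 2 ≤ g → (∀ x, G.degree x ≤ d) →
      (∀ S : Finset V, S.card ≤ s →
        4 * g * S.card ≤ (S.biUnion (fun x => G.neighborFinset x)).card) →
      (∀ A B : Finset V, s ≤ A.card → s ≤ B.card → ∃ a ∈ A, ∃ b ∈ B, G.Adj a b) →
      NP ≤ N * (d + 1) ^ (2 * Nat.log g N + 2) * Z) ∧
    (∀ (d : ℕ) (lam : ℝ), 0 < d → 0 ≤ lam → G.IsRegularOfDegree d →
      (∀ f : V → ℝ, (∑ x, f x) = 0 →
        (∑ x, ((G.adjMatrix ℝ).mulVec f x) ^ 2) ≤ lam ^ 2 * (∑ x, f x ^ 2)) →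
      (∀ g : ℕ, 2 ≤ g → 12 * (g : ℝ) * lam ≤ d →
        NP ≤ N * (d + 1) ^ (2 * Nat.log g N + 2) * Z ∧
          NP ≤ (d + 1) ^ 2 * N ^ (2 * Nat.clog g (d + 1) + 1) * Z) ∧
      (24 * lam ≤ d → NP ≤ N ^ 6 * Z) ∧
      (2000 * lam ≤ d → NP ≤ N ^ 3 * Z)) := by
  subst hN hNP hZ
  refine ⟨fun hpm => ?_, ?_, ?_⟩
  · exact ratio_bound G.indepNum (fun s hs => hs.card_le_indepNum) hpm
  · intro d g s hd hg hdeg hexp hjoin
    apply ratio_bound2 d _ hd hdeg
    intro τ u v hτ
    apply exists_short_aug hτ hg (s := s) _ hjoin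
    intro S T hS hST
    refine (hexp S hS).trans (Finset.card_le_card ?_)
    intro y hy
    rw [Finset.mem_biUnion] at hy
    obtain ⟨x, hx, hxy⟩ := hy
    exact hST x hx y ((G.mem_neighborFinset x y).mp hxy)
  · intro d lam hd hlam hreg hspec
    have hspec' : ∀ f : V → ℝ, ∑ x, f x = 0 →
        ∑ x, (∑ y ∈ G.neighborFinset x, f y) ^ 2 ≤ lam ^ 2 * ∑ x, f x ^ 2 := by
      intro f hf
      have h := hspec f hf
      simpa [SimpleGraph.adjMatrix_mulVec_apply] using h
    refine ⟨fun g hg hgap => ?_, fun hgap => ?_, fun hgap => ?_⟩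
    · have h1 := expander_ratio hd hg hlam (fun x => hreg.degree_eq x) hspec' hgap
      refine ⟨h1, h1.trans ?_⟩
      apply Nat.mul_le_mul_right
      rcases Nat.eq_zero_or_pos (Fintype.card V) with h0 | hpos
      · rw [h0]; simp
      · have hb : 1 < g := by omega
        have e1 : d + 1 ≤ g ^ Nat.clog g (d + 1) := Nat.le_pow_clog hb (d + 1)
        have e2 : g ^ Nat.log g (Fintype.card V) ≤ Fintype.card V :=
          Nat.pow_log_le_self g (by omega)
        have e3 : (d + 1) ^ Nat.log g (Fintype.card V)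
            ≤ Fintype.card V ^ Nat.clog g (d + 1) := by
          calc (d + 1) ^ Nat.log g (Fintype.card V)
              ≤ (g ^ Nat.clog g (d + 1)) ^ Nat.log g (Fintype.card V) :=
                Nat.pow_le_pow_left e1 _
            _ = (g ^ Nat.log g (Fintype.card V)) ^ Nat.clog g (d + 1) := by
                rw [← pow_mul, ← pow_mul, mul_comm]
            _ ≤ Fintype.card V ^ Nat.clog g (d + 1) := Nat.pow_le_pow_left e2 _
        calc Fintype.card V * (d + 1) ^ (2 * Nat.log g (Fintype.card V) + 2)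
            = (d + 1) ^ 2 * (Fintype.card V * ((d + 1) ^ Nat.log g (Fintype.card V)) ^ 2) := by
              ring
          _ ≤ (d + 1) ^ 2 * (Fintype.card V * (Fintype.card V ^ Nat.clog g (d + 1)) ^ 2) := by
              gcongr
          _ = (d + 1) ^ 2 * Fintype.card V ^ (2 * Nat.clog g (d + 1) + 1) := by
              ring
    · exact Vale.Agent.H83.Poly.poly_ratio2 d lam hd hlam (fun x => hreg.degree_eq x) hspec' hgap
    · exact Vale.Agent.H83.Poly.poly_ratio d lam hd hlam (fun x => hreg.degree_eq x) hspec' hgap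

end Vale.Agent.Results.P308.A00_CombinedRatioBounds
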