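import Vale.Agent.H83.Poly.Main

namespace Vale.Agent.Results.P308.A0_ExpanderCubicRatio

/-- In a `d`-regular graph on `N` vertices (`d > 0`) whose adjacency matrix `A` satisfies
`‖A f‖ ≤ lam ‖f‖` for every `f` orthogonal to the constants (a two-sided spectral expander with
second eigenvalue bound `lam`), if `2000 * lam ≤ d` then the number of near-perfect matchings
(matchings missing exactly two vertices) is at most `N ^ 3` times the number of perfect
matchings.  The exponent does not depend on `d`. -/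
theorem result {V : Type*} [Fintype V] [DecidableEq V] (G : SimpleGraph V) [DecidableRel G.Adj]
    (d : ℕ) (lam : ℝ) (hd : 0 < d) (hlam : 0 ≤ lam)
    (hreg : G.IsRegularOfDegree d)
    (hspec : ∀ f : V → ℝ, (∑ x, f x) = 0 →
      (∑ x, ((G.adjMatrix ℝ).mulVec f x) ^ 2) ≤ lam ^ 2 * (∑ x, f x ^ 2))
    (hgap : 2000 * lam ≤ d) :
    Nat.card {M : G.Subgraph // M.IsMatching ∧ M.vertsᶜ.ncard = 2}
      ≤ Fintype.card V ^ 3 * Nat.card {M : G.Subgraph // M.IsPerfectMatching} := by
  have hspec' : ∀ f : V → ℝ, ∑ x, f x = 0 →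
      ∑ x, (∑ y ∈ G.neighborFinset x, f y) ^ 2 ≤ lam ^ 2 * ∑ x, f x ^ 2 := by
    intro f hf
    have h := hspec f hf
    simpa [SimpleGraph.adjMatrix_mulVec_apply] using h
  exact Vale.Agent.H83.Poly.poly_ratio d lam hd hlam (fun x => hreg.degree_eq x) hspec' hgap

end Vale.Agent.Results.P308.A0_ExpanderCubicRatio
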