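import Vale.Agent.H83.MatchingsCount

namespace Vale.Agent.Results.P308.A_BoundedIndependence

open Vale.Agent.H83.Matchings

/-- In every finite simple graph `G` that has a perfect matching, the number of near-perfect
matchings (matchings leaving exactly two vertices uncovered) is at most `(n + 1) ^ (3 * α)`
times the number of perfect matchings, where `n` is the number of vertices and `α` is the
independence number of `G`. -/
theorem result {V : Type*} [Fintype V] (G : SimpleGraph V)
    (hpm : ∃ M : G.Subgraph, M.IsPerfectMatching) :
    Nat.card {M : G.Subgraph // M.IsMatching ∧ M.vertsᶜ.ncard = 2}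
      ≤ (Fintype.card V + 1) ^ (3 * G.indepNum)
        * Nat.card {M : G.Subgraph // M.IsPerfectMatching} := by
  classical
  exact ratio_bound G.indepNum (fun s hs => hs.card_le_indepNum) hpm

end Vale.Agent.Results.P308.A_BoundedIndependence
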