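import Vale.Agent.H83.ExpanderSpectral

namespace Vale.Agent.Results.P308.A_RegularSpectralExpander

open Vale.Agent.H83.Matchings

/-- In a `d`-regular graph whose adjacency matrix `A` satisfies `‖A f‖ ≤ lam ‖f‖` for every
`f` orthogonal to the constants (two-sided spectral expander with second eigenvalue bound `lam`)
and `12 g lam ≤ d` for an integer `g ≥ 2`, the number of near-perfect matchings is at most
`|V| (d+1)^(2 log_g |V| + 2)` times, and hence at most `(d+1)^2 |V|^(2 ⌈log_g (d+1)⌉ + 1)` times,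
the number of perfect matchings. -/
theorem result {V : Type*} [Fintype V] [DecidableEq V] (G : SimpleGraph V) [DecidableRel G.Adj]
    (d g : ℕ) (lam : ℝ) (hd : 0 < d) (hg : 2 ≤ g) (hlam : 0 ≤ lam)
    (hreg : G.IsRegularOfDegree d)
    (hspec : ∀ f : V → ℝ, (∑ x, f x) = 0 →
      (∑ x, ((G.adjMatrix ℝ).mulVec f x) ^ 2) ≤ lam ^ 2 * (∑ x, f x ^ 2))
    (hgap : 12 * (g : ℝ) * lam ≤ d) :
    (Nat.card {M : G.Subgraph // M.IsMatching ∧ M.vertsᶜ.ncard = 2}
        ≤ Fintype.card V * (d + 1) ^ (2 * Nat.log g (Fintype.card V) + 2)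
          * Nat.card {M : G.Subgraph // M.IsPerfectMatching}) ∧
    (Nat.card {M : G.Subgraph // M.IsMatching ∧ M.vertsᶜ.ncard = 2}
        ≤ (d + 1) ^ 2 * Fintype.card V ^ (2 * Nat.clog g (d + 1) + 1)
          * Nat.card {M : G.Subgraph // M.IsPerfectMatching}) := by
  have hspec' : ∀ f : V → ℝ, ∑ x, f x = 0 →
      ∑ x, (∑ y ∈ G.neighborFinset x, f y) ^ 2 ≤ lam ^ 2 * ∑ x, f x ^ 2 := by
    intro f hf
    have h := hspec f hf
    simpa [SimpleGraph.adjMatrix_mulVec_apply] using h
  have h1 := expander_ratio hd hg hlam (fun x => hreg.degree_eq x) hspec' hgap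
  refine ⟨h1, h1.trans ?_⟩
  apply Nat.mul_le_mul_right
  rcases Nat.eq_zero_or_pos (Fintype.card V) with h0 | hpos
  · rw [h0]; simp
  · have hb : 1 < g := by omega
    have e1 : d + 1 ≤ g ^ Nat.clog g (d + 1) := Nat.le_pow_clog hb (d + 1)
    have e2 : g ^ Nat.log g (Fintype.card V) ≤ Fintype.card V :=
      Nat.pow_log_le_self g (by omega)
    have e3 : (d + 1) ^ Nat.log g (Fintype.card V)
        ≤ Fintype.card V ^ Nat.clog g (d + 1) := by
      calc (d + 1) ^ Nat.log g (Fintype.card V)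
          ≤ (g ^ Nat.clog g (d + 1)) ^ Nat.log g (Fintype.card V) :=
            Nat.pow_le_pow_left e1 _
        _ = (g ^ Nat.log g (Fintype.card V)) ^ Nat.clog g (d + 1) := by
            rw [← pow_mul, ← pow_mul, mul_comm]
        _ ≤ Fintype.card V ^ Nat.clog g (d + 1) := Nat.pow_le_pow_left e2 _
    calc Fintype.card V * (d + 1) ^ (2 * Nat.log g (Fintype.card V) + 2)
        = (d + 1) ^ 2 * (Fintype.card V * ((d + 1) ^ Nat.log g (Fintype.card V)) ^ 2) := by
          ring
      _ ≤ (d + 1) ^ 2 * (Fintype.card V * (Fintype.card V ^ Nat.clog g (d + 1)) ^ 2) := by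
          gcongr
      _ = (d + 1) ^ 2 * Fintype.card V ^ (2 * Nat.clog g (d + 1) + 1) := by
          ring

end Vale.Agent.Results.P308.A_RegularSpectralExpander
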