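import Vale.Agent.H83.ExpanderCount

namespace Vale.Agent.Results.P308.B_VertexExpander

open Vale.Agent.H83.Matchings

/-- If all degrees of `G` are at most `d`, every vertex set `S` with at most `s` elements has at
least `4 g |S|` neighbours (`g ≥ 2`), and any two vertex sets with at least `s` elements are
joined by an edge, then the number of near-perfect matchings is at most
`|V| (d+1)^(2 log_g |V| + 2)` times the number of perfect matchings. -/
theorem result {V : Type*} [Fintype V] [DecidableEq V] (G : SimpleGraph V) [DecidableRel G.Adj]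
    (d g s : ℕ) (hd : 0 < d) (hg : 2 ≤ g) (hdeg : ∀ x, G.degree x ≤ d)
    (hexp : ∀ S : Finset V, S.card ≤ s →
      4 * g * S.card ≤ (S.biUnion (fun x => G.neighborFinset x)).card)
    (hjoin : ∀ A B : Finset V, s ≤ A.card → s ≤ B.card → ∃ a ∈ A, ∃ b ∈ B, G.Adj a b) :
    Nat.card {M : G.Subgraph // M.IsMatching ∧ M.vertsᶜ.ncard = 2}
      ≤ Fintype.card V * (d + 1) ^ (2 * Nat.log g (Fintype.card V) + 2)
        * Nat.card {M : G.Subgraph // M.IsPerfectMatching} := by
  apply ratio_bound2 d _ hd hdeg
  intro τ u v hτ
  apply exists_short_aug hτ hg (s := s) _ hjoin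
  intro S T hS hST
  refine (hexp S hS).trans (Finset.card_le_card ?_)
  intro y hy
  rw [Finset.mem_biUnion] at hy
  obtain ⟨x, hx, hxy⟩ := hy
  exact hST x hx y ((G.mem_neighborFinset x y).mp hxy)

end Vale.Agent.Results.P308.B_VertexExpander
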